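import Vale.Agent.P134C.Top
import Vale.Agent.P134B.JAC
import Vale.Agent.P134H.Ric

/-!
# P134F: the additional gain (row ABS of block (c))
-/

open MeasureTheory Metric Filter Topology Set
open scoped ContDiff RealInnerProductSpace
open Vale.Agent.P366.Stmt (E)
open Vale.Agent.P366W hiding Gr
open Vale.Agent.P134T Vale.Agent.P134B Vale.Agent.P134C

noncomputable section

namespace Vale.Agent.P134F

namespace Ab

variable {n : ℕ} {C : ℝ} {u φ : E n → ℝ}

def g (s : ℝ) : ℝ := (√(1 + s ^ 2))⁻¹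

theorem g_pos (s : ℝ) : 0 < g s := by unfold g; positivity

theorem g_sq (s : ℝ) : g s ^ 2 * (1 + s ^ 2) = 1 := by
  rw [g, inv_pow, Real.sq_sqrt (by positivity), inv_mul_cancel₀ (by positivity)]

theorem g_le (s : ℝ) : g s ≤ 1 := by nlinarith [g_sq s, g_pos s, sq_nonneg (g s * s)]

theorem cd_g : ContDiff ℝ ∞ g :=
  ((contDiff_const.add (contDiff_id.pow 2)).sqrt fun _ => by positivity).inv fun _ => by positivity

theorem dg (s : ℝ) : HasDerivAt g (-s * g s ^ 3) s := by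
  have p : 0 < √(1 + s ^ 2) := by positivity
  refine ((((hasDerivAt_pow 2 s).const_add 1).sqrt (by positivity)).inv p.ne').congr_deriv ?_
  unfold g
  field_simp
  simp

theorem dg1 (s : ℝ) : HasDerivAt (fun s => -s * g s ^ 3) (-g s ^ 3 + 3 * s ^ 2 * g s ^ 5) s :=
  ((hasDerivAt_id' s).fun_neg.fun_mul ((dg s).fun_pow 3)).congr_deriv (by simp; ring)

theorem cq (h : Ok C u) : ContDiff ℝ ∞ (qq u) := contDiff_const.sub (h.tcp.norm_sq ℝ)

theorem cE (h : Ok C u) : ContDiff ℝ ∞ (EE u) := (h.tcf.pow 2).mul (cq h)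

/-- the field `ff² ∇ qq` -/
def V (u : E n → ℝ) (x : E n) : E n := gradient (EE u) x + (2 * √2 * (u x * EE u x)) • pp u x

theorem cV (h : Ok C u) : ContDiff ℝ ∞ (V u) :=
  (smooth_gradient (cE h)).add ((contDiff_const.mul (h.sm.mul (cE h))).smul h.tcp)

theorem V_eq (h : Ok C u) (x : E n) : V u x = (-2 * ff u x ^ 2) • SS u x (pp u x) := by
  have df := h.tcf.differentiable (by simp) x
  have dq := (cq h).differentiable (by simp) x
  rw [V, EE, show EE u = fun y => ff u y * (ff u y * qq u y) from funext fun y => by rw [EE]; ring,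
    grad_mul df (df.fun_mul dq), grad_mul df dq, h.gf, h.gq]
  module

theorem dvg_V (h : Ok C u) (x : E n) :
    dvg (V u) x = 2 * ff u x ^ 2 * (PP u x * ‖pp u x‖ ^ 2 - hs (SS u x)) := by
  have du := h.sm.differentiable (by simp) x
  have dE := (cE h).differentiable (by simp) x
  have dp := h.tcp.differentiable (by simp) x
  have dG := (smooth_gradient (cE h)).differentiable (by simp) x
  have d1 : DifferentiableAt ℝ (fun y => u y * EE u y) x := du.mul dE
  have s2 : √2 * √2 = 2 := Real.mul_self_sqrt zero_le_two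
  have l := h.lE x
  unfold V
  rw [dvg_add dG ((d1.const_mul _).fun_smul dp), dvg_smul (d1.const_mul _) dp, ← inner_grad,
    grad_cmul _ d1, grad_mul du dE, h.gu, dvg_eq (pp u),
    show trc (fderiv ℝ (pp u) x) = _ from h.tr x]
  rw [h.tr, lap, real_inner_comm] at l
  simp only [inner_smul_left, inner_add_left, real_inner_self_eq_norm_sq, conj_trivial, PP]
  rw [EE] at *
  linear_combination l - (2 * ff u x ^ 2 * (u x * qq u x) ^ 2 - 2 * ff u x ^ 2 * (u x * qq u x) ^ 2) * s2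

theorem hs_ge (A : E n →L[ℝ] E n) (hA : ∀ v w, ⟪A v, w⟫ = ⟪v, A w⟫) (v : E n) :
    ‖A v‖ ^ 2 ≤ hs A * ‖v‖ ^ 2 := by
  rw [EuclideanSpace.real_norm_sq_eq (A v), hs, Finset.sum_mul]
  refine Finset.sum_le_sum fun i _ => ?_
  have e : A v i = ⟪A (EuclideanSpace.single i 1), v⟫ := by
    rw [hA, EuclideanSpace.inner_single_left]; simp
  rw [e, ← mul_pow, ← sq_abs]
  exact pow_le_pow_left₀ (abs_nonneg _) (abs_real_inner_le_norm _ _) 2

/-- the field of the identity -/
def Y (u φ : E n → ℝ) (x : E n) : E n :=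
  (φ x * φ x * (-ps u x * g (ps u x) ^ 3 * EE u x)) • pp u x -
    (φ x * φ x * (1 + g (ps u x))) • V u x

theorem cY (h : Ok C u) (hφ : ContDiff ℝ 1 φ) : ContDiff ℝ 1 (Y u φ) := by
  have a := cd_g.comp h.smp
  exact (((hφ.mul hφ).mul (((h.smp.neg.mul (a.pow 3)).mul (cE h)).of_le (by simp))).smul
    (h.tcp.of_le (by simp))).sub (((hφ.mul hφ).mul ((contDiff_const.add a).of_le (by simp))).smul
    ((cV h).of_le (by simp)))

theorem dvg_Y (h : Ok C u) (hφ : ContDiff ℝ 1 φ) (x : E n) : dvg (Y u φ) x =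
    φ x ^ 2 * (EE u x * (√2 * (u x * ps u x) * g (ps u x) ^ 3 * (1 + ‖pp u x‖ ^ 2) +
      (-g (ps u x) ^ 3 + 3 * ps u x ^ 2 * g (ps u x) ^ 5) * ‖pp u x‖ ^ 2) -
      (1 + g (ps u x)) * (2 * ff u x ^ 2 * (PP u x * ‖pp u x‖ ^ 2 - hs (SS u x)))) +
    2 * φ x * (-ps u x * g (ps u x) ^ 3 * EE u x * ⟪gradient φ x, pp u x⟫ -
      (1 + g (ps u x)) * ⟪gradient φ x, V u x⟫) := by
  have dE := (cE h).differentiable (by simp) x
  have dp := h.tcp.differentiable (by simp) x
  have dV := (cV h).differentiable (by simp) x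
  have dφ := hφ.differentiable one_ne_zero x
  have dψ := h.smp.differentiable (by simp) x
  have d0 : DifferentiableAt ℝ (fun y => φ y * φ y) x := dφ.mul dφ
  have d1 : DifferentiableAt ℝ (fun y => -ps u y * g (ps u y) ^ 3) x :=
    (dg1 _).differentiableAt.comp x dψ
  have d2 : DifferentiableAt ℝ (fun y => 1 + g (ps u y)) x :=
    ((dg _).const_add 1).differentiableAt.comp x dψ
  have e1 := grad_comp (dg1 (ps u x)) dψ
  have e2 := grad_comp ((dg (ps u x)).const_add 1) dψ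
  have e3 : gradient (EE u) x = V u x - (2 * √2 * (u x * EE u x)) • pp u x := by simp [V]
  have hq : qq u x = 1 - ‖pp u x‖ ^ 2 := rfl
  unfold Y
  rw [dvg_sub ((d0.fun_mul (d1.fun_mul dE)).fun_smul dp) ((d0.fun_mul d2).fun_smul dV),
    dvg_smul (d0.fun_mul (d1.fun_mul dE)) dp, dvg_smul (d0.fun_mul d2) dV, ← inner_grad,
    ← inner_grad, grad_mul d0 (d1.fun_mul dE), grad_mul d0 d2, grad_mul d1 dE, grad_mul dφ dφ, e1,
    e2, e3, dvg_V h, dvg_eq (pp u), show trc (fderiv ℝ (pp u) x) = _ from h.tr x,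
    show gradient (ps u) x = pp u x from rfl]
  simp only [inner_smul_left, inner_add_left, inner_sub_left, real_inner_self_eq_norm_sq,
    conj_trivial, hq, real_inner_comm (V u x) (pp u x)]
  ring

theorem key (h : Ok C u) (x : E n) : EE u x * g (ps u x) ^ 2 / 2 - 32 * (ff u x ^ 2 * PP u x) ≤
    EE u x * (√2 * (u x * ps u x) * g (ps u x) ^ 3 * (1 + ‖pp u x‖ ^ 2) +
      (-g (ps u x) ^ 3 + 3 * ps u x ^ 2 * g (ps u x) ^ 5) * ‖pp u x‖ ^ 2) := by
  have E0 := h.tEE_nn x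
  have f0 := h.tff_pos x
  have p1 : ‖pp u x‖ ^ 2 ≤ 1 := by nlinarith [h.tpp_le x, norm_nonneg (pp u x)]
  have p0 := sq_nonneg ‖pp u x‖
  have s1 : 7 / 5 ≤ √2 := Real.le_sqrt_of_sq_le (by norm_num)
  have s3 : √2 ≤ 3 / 2 := Real.sqrt_le_iff.2 ⟨by norm_num, by norm_num⟩
  have e : ff u x ^ 2 * PP u x = √2 * ff u x * EE u x := by rw [PP, EE]; ring
  have g0 := g_pos (ps u x)
  have g1 := g_le (ps u x)
  have g2 := g_sq (ps u x)
  have u0 : 0 ≤ u x * ps u x := by
    rw [h.th, Real.tanh_eq_sinh_div_cosh, div_mul_eq_mul_div]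
    refine div_nonneg ?_ (Real.cosh_pos _).le
    rcases le_total 0 (ps u x) with k | k
    · exact mul_nonneg (Real.sinh_nonneg_iff.2 (by positivity)) k
    · exact mul_nonneg_of_nonpos_of_nonpos
        (Real.sinh_nonpos_iff.2 (div_nonpos_of_nonpos_of_nonneg k (by positivity))) k
  rw [e]
  set s := ps u x
  set γ := g s
  set a := ‖pp u x‖ ^ 2
  by_cases k : 2 ≤ |s|
  · have u1 : 3 / 4 * |s| ≤ u x * s := by
      rcases le_abs.1 k with k | k
      · rw [abs_of_nonneg (by linarith)]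
        nlinarith [P134H.u_ge h k]
      · rw [abs_of_nonpos (by linarith)]
        nlinarith [P134H.u_le h (x := x) (by linarith)]
    have s4 : 4 ≤ s ^ 2 := by rw [← sq_abs]; nlinarith
    have b1 : 1 / 2 ≤ |s| * γ := by
      refine abs_le_of_sq_le_sq' ?_ (by positivity) |>.2
      rw [mul_pow, sq_abs]
      nlinarith [sq_nonneg γ]
    have b2 : 0 ≤ -γ ^ 3 + 3 * s ^ 2 * γ ^ 5 := by
      have : 0 ≤ γ ^ 3 * (3 * (s ^ 2 * γ ^ 2) - 1) :=
        mul_nonneg (by positivity) (by nlinarith [sq_nonneg γ])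
      linarith
    have b3 : 1 / 2 ≤ √2 * (u x * s) * γ := by
      have : 3 / 4 * |s| * γ ≤ u x * s * γ := by gcongr
      nlinarith
    have b4 : γ ^ 2 / 2 ≤ √2 * (u x * s) * γ ^ 3 * (1 + a) := by
      have : γ ^ 2 * (1 / 2) ≤ γ ^ 2 * (√2 * (u x * s) * γ) := by gcongr
      have b5 : 0 ≤ √2 * (u x * s) * γ ^ 3 * a := by positivity
      linarith
    have b6 := mul_le_mul_of_nonneg_left (le_add_of_le_of_nonneg b4 (mul_nonneg b2 p0)) E0
    have b7 : 0 ≤ √2 * ff u x * EE u x := by positivity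
    linarith
  · have f1 : 1 / 21 ≤ √2 * ff u x := by
      have a1 := h.flo x
      rw [div_le_iff₀ (by positivity)] at a1
      have a2 : Real.exp (-3) ≤ Real.exp (-(√2 * |s|)) :=
        Real.exp_le_exp.2 (by nlinarith [not_le.1 k, abs_nonneg s])
      have a3 : Real.exp 3 ≤ 21 := by
        have := Real.exp_one_lt_d9
        rw [show (3 : ℝ) = (3 : ℕ) * 1 by norm_num, Real.exp_nat_mul]
        exact (pow_le_pow_left₀ (Real.exp_pos 1).le this.le 3).trans (by norm_num)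
      have a4 : 1 / 21 ≤ Real.exp (-3) := by
        rw [Real.exp_neg, one_div]
        exact inv_anti₀ (Real.exp_pos 3) a3
      linarith
    have γ2 : γ ^ 2 ≤ 1 := pow_le_one₀ g0.le g1
    have γ3 : γ ^ 3 * a ≤ 1 := mul_le_one₀ (pow_le_one₀ g0.le g1) p0 p1
    have b1 : 0 ≤ √2 * (u x * s) * γ ^ 3 * (1 + a) := by positivity
    have b2 : 0 ≤ 3 * s ^ 2 * γ ^ 5 * a := by positivity
    have b3 : -1 ≤ √2 * (u x * s) * γ ^ 3 * (1 + a) + (-γ ^ 3 + 3 * s ^ 2 * γ ^ 5) * a := by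
      linarith
    nlinarith [mul_le_mul_of_nonneg_left b3 E0, mul_le_mul_of_nonneg_left γ2 E0,
      mul_le_mul_of_nonneg_right f1 E0]

theorem pt (h : Ok C u) (hφ : ContDiff ℝ 1 φ) (x : E n) : Gn u x * φ x ^ 2 ≤ 4 * dvg (Y u φ) x +
    145 * (ff u x ^ 2 * φ x ^ 2 * PP u x) + 48 * (ff u x ^ 2 * ‖gradient φ x‖ ^ 2) := by
  have k := mul_le_mul_of_nonneg_left (key h x) (sq_nonneg (φ x))
  have E0 := h.tEE_nn x
  have f0 := h.tff_pos x
  have q0 := h.q0 x
  have q1 := qq_le u x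
  have p1 := h.tpp_le x
  have p2 : ‖pp u x‖ ^ 2 ≤ 1 := by nlinarith [norm_nonneg (pp u x)]
  have g0 := g_pos (ps u x)
  have g1 := g_le (ps u x)
  have g2 := g_sq (ps u x)
  have P0 : 0 ≤ PP u x := by rw [PP]; positivity
  have h0 : 0 ≤ hs (SS u x) := Finset.sum_nonneg fun _ _ => sq_nonneg _
  have e : EE u x / (1 + ps u x ^ 2) = EE u x * g (ps u x) ^ 2 := by
    rw [div_eq_iff (by positivity), mul_assoc, g2, mul_one]
  have E1 : EE u x ≤ ff u x ^ 2 := by rw [EE]; nlinarith [sq_nonneg (ff u x)]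
  have S1 : ‖SS u x (pp u x)‖ ^ 2 ≤ hs (SS u x) := by nlinarith [hs_ge _ (h.sy x) (pp u x)]
  have i1 : ⟪gradient φ x, pp u x⟫ ^ 2 ≤ ‖gradient φ x‖ ^ 2 := by
    rw [← sq_abs]
    exact pow_le_pow_left₀ (abs_nonneg _) ((abs_real_inner_le_norm _ _).trans
      (mul_le_of_le_one_right (norm_nonneg _) p1)) 2
  have i2 := abs_real_inner_le_norm (gradient φ x) (SS u x (pp u x))
  rw [dvg_Y h hφ, V_eq h, real_inner_smul_right, Gn, e]
  set s := ps u x
  set γ := g s
  set D := ‖gradient φ x‖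
  set a := ⟪gradient φ x, pp u x⟫
  set b := ⟪gradient φ x, SS u x (pp u x)⟫
  set H := hs (SS u x)
  set F := ff u x ^ 2 with hF
  have F0 : 0 ≤ F := by positivity
  have c1 : -(γ ^ 2 * φ x ^ 2 / 4 + 4 * D ^ 2) ≤ 2 * φ x * (-s * γ ^ 3 * a) := by
    have a1 : (s * γ ^ 2) ^ 2 ≤ 1 := by
      have : s ^ 2 * γ ^ 2 ≤ 1 := by nlinarith [sq_nonneg γ]
      have γ2 : γ ^ 2 ≤ 1 := pow_le_one₀ g0.le g1
      nlinarith [mul_le_one₀ this (sq_nonneg γ) γ2]
    nlinarith [sq_nonneg (γ * φ x / 2 - 2 * (s * γ ^ 2 * a)), mul_le_mul a1 i1 (sq_nonneg _)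
      zero_le_one]
  have c2 : -(H * φ x ^ 2 + 4 * D ^ 2) ≤ 4 * φ x * b := by
    have a1 : |4 * φ x * b| ≤ 4 * |φ x| * (D * ‖SS u x (pp u x)‖) := by
      rw [abs_mul, abs_mul, abs_of_pos (by norm_num : (0 : ℝ) < 4)]
      gcongr
    nlinarith [neg_abs_le (4 * φ x * b), sq_nonneg (|φ x| * ‖SS u x (pp u x)‖ - 2 * D),
      mul_le_mul_of_nonneg_left S1 (sq_nonneg (φ x)), sq_abs (φ x)]
  have c3 := mul_le_mul_of_nonneg_left c1 E0
  have c4 := mul_le_mul_of_nonneg_left c2 (show 0 ≤ (1 + γ) * F by positivity)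
  have c5 : EE u x * D ^ 2 ≤ F * D ^ 2 := by gcongr
  have c6 : γ * (F * D ^ 2) ≤ 1 * (F * D ^ 2) := by gcongr
  have c7 : 0 ≤ γ * (F * H * φ x ^ 2) := by positivity
  have c9 : 0 ≤ F * H * φ x ^ 2 := by positivity
  have c8 : (1 + γ) * ‖pp u x‖ ^ 2 * (F * φ x ^ 2 * PP u x) ≤ 2 * 1 * (F * φ x ^ 2 * PP u x) := by
    gcongr
    linarith
  linarith

end Ab

open Ab in
theorem abs0 : P134C.ABS := fun n C u h st => ⟨772, by norm_num, fun φ hφ hc => by
  obtain ⟨i1, i2, j⟩ := jac n C u φ (fun _ => 1) h st (by simpa using hc)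
    fun x => Or.inl ⟨hφ.contDiffAt, contDiffAt_const⟩
  simp only [Lf, lap_const, grad_const, inner_zero_right, mul_zero, sub_zero, zero_add, mul_one,
    one_mul, one_pow] at i1 i2 j
  have sY : HasCompactSupport (Y u φ) := hc.mono fun x hx e => hx (by simp [Y, e])
  have iY := (continuous_dvg (cY h hφ)).integrable_of_hasCompactSupport (μ := volume) (hcs_dvg sY)
  have cf := h.tcf.continuous
  have cq' := (cq h).continuous
  have cD : Continuous (gradient φ) := (contDiff_gradient (k := 0) hφ).continuous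
  have i3 : Integrable fun x => hh u x * ‖gradient φ x‖ ^ 2 := by
    refine Continuous.integrable_of_hasCompactSupport (by unfold hh ft th; fun_prop)
      (hc.mono' fun x hx => ?_)
    by_contra hn
    exact hx (by simp [gradient, fderiv_of_notMem_tsupport ℝ hn])
  have a1 : ∫ x, Gn u x / 772 * φ x ^ 2 ≤ ∫ x, (4 * dvg (Y u φ) x +
      145 * (ff u x ^ 2 * φ x ^ 2 * PP u x) + 48 * (ff u x ^ 2 * ‖gradient φ x‖ ^ 2)) / 772 := by
    refine integral_mono_of_nonneg (Eventually.of_forall fun x => ?_)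
      ((((iY.const_mul 4).add (i1.const_mul 145)).add (i2.const_mul 48)).div_const _)
      (Eventually.of_forall fun x => ?_)
    · have := h.tEE_nn x
      have := h.q0 x
      have := h.tff_pos x
      have h0 : 0 ≤ hs (SS u x) := Finset.sum_nonneg fun _ _ => sq_nonneg _
      simp only [Gn, PP, Pi.zero_apply]
      positivity
    · have := pt h hφ x
      simp only
      linarith
  have a2 : ∫ x, ff u x ^ 2 * ‖gradient φ x‖ ^ 2 / 4 ≤ ∫ x, hh u x * ‖gradient φ x‖ ^ 2 :=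
    integral_mono (i2.div_const _) i3 fun x => by
      have a : (1 / 2) ^ 2 ≤ th u x ^ 2 :=
        pow_le_pow_left₀ (by norm_num) (by rw [th]; linarith [qq_le u x]) 2
      have := mul_le_mul_of_nonneg_left a
        (show 0 ≤ ff u x ^ 2 * ‖gradient φ x‖ ^ 2 by positivity)
      simp only [hh, ft]
      linarith
  have i4 : Integrable fun x => 4 * dvg (Y u φ) x := iY.const_mul 4
  have i5 : Integrable fun x => 145 * (ff u x ^ 2 * φ x ^ 2 * PP u x) := i1.const_mul 145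
  have i6 : Integrable fun x => 48 * (ff u x ^ 2 * ‖gradient φ x‖ ^ 2) := i2.const_mul 48
  have i7 : Integrable fun x => 4 * dvg (Y u φ) x + 145 * (ff u x ^ 2 * φ x ^ 2 * PP u x) :=
    i4.add i5
  rw [integral_div, integral_add i7 i6, integral_add i4 i5, integral_const_mul, integral_const_mul,
    integral_const_mul, integral_dvg_zero (cY h hφ) sY] at a1
  rw [integral_div] at a2
  simp only
  linarith⟩

theorem abs : rABS := fun _ _ => abs0

end Vale.Agent.P134F
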