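import Vale.Agent.P134C.Top
import Vale.Agent.P134H.Flat
import Vale.Agent.P134H.Step

/-!
# P134F: far from the bad set the two-point function is small at moderate depth (row SUPP)
-/

open MeasureTheory Metric Filter Topology Set
open scoped ContDiff RealInnerProductSpace
open Vale.Agent.P366.Stmt (E)
open Vale.Agent.P134T Vale.Agent.P134B Vale.Agent.P134C Vale.Agent.P134H

noncomputable section

namespace Vale.Agent.P134F

variable {n : ℕ} {C δ : ℝ} {u : E n → ℝ}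

theorem dd_neg (δ : ℝ) (u : E n → ℝ) : dd δ (-u) = dd δ u := funext fun x => by
  simp only [dd, Bad, Sy.EE_neg]

theorem rt_neg (h : Rt C δ u) : Rt C δ (-u) :=
  ⟨Sy.ok h.ok, (sym.1 n u).2.2.1 h.st, h.d0, by simpa only [Bad, Sy.EE_neg] using h.ne,
    fun x => by rw [dd_neg, Sy.EE_neg]; exact h.rt x⟩

theorem mu_nn (u : E n → ℝ) (x : E n) : 0 ≤ mu u x := Real.iSup_nonneg' ⟨0, by simp [Zq]⟩

theorem ph_nn (u : E n → ℝ) (x : E n) : 0 ≤ ph u x :=
  div_nonneg (mu_nn u x) ((mu_nn u x).trans (le_max_right _ _))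

/-- a large value of `ph (-u)` gives a point above a paraboloid -/
theorem of_ph {x : E n} {a : ℝ} (k : 1 < ph (-u) x * a) :
    0 < a + ps u x ∧ ∃ w : E n, w ≠ 0 ∧
      (1 - qq u x / 2) / (a + ps u x) * ‖w‖ ^ 2 / 2 ≤ ht u x (x + w) := by
  have m0 := mu_nn (-u) x
  have t0 : 1 / 2 ≤ 1 - qq u x / 2 := by linarith [qq_le u x]
  have m1 : 0 < mu (-u) x := m0.lt_of_ne fun e => by
    rw [ph, ← e] at k
    norm_num at k
  rw [ph, div_mul_eq_mul_div, lt_div_iff₀ (m1.trans_le (le_max_right _ _)), one_mul, th,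
    Sy.qq_neg, Sy.ps_neg, Pi.neg_apply] at k
  have k1 : 1 - qq u x / 2 < mu (-u) x * (a + ps u x) := by linarith [(le_max_left _ _).trans_lt k]
  have k2 : 0 < a + ps u x := by
    by_contra c
    nlinarith [mul_nonneg m0 (neg_nonneg.2 (not_lt.1 c))]
  rw [← div_lt_iff₀ k2] at k1
  obtain ⟨w, hw⟩ := exists_lt_of_lt_ciSup k1
  have p0 : 0 < (1 - qq u x / 2) / (a + ps u x) := by positivity
  have w0 : w ≠ 0 := fun e => by
    rw [e] at hw
    simp only [Zq, norm_zero, ne_eq, OfNat.ofNat_ne_zero, not_false_eq_true, zero_pow,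
      div_zero] at hw
    linarith
  refine ⟨k2, w, w0, ?_⟩
  rw [Zq, lt_div_iff₀ (by positivity), Sy.ps_neg, Sy.pp_neg] at hw
  simp only [Pi.neg_apply, inner_neg_left] at hw
  rw [ht, add_sub_cancel_left]
  linarith

theorem core (h : Ok C u) {e x : E n} {a T ε : ℝ} (he : ‖e‖ = 1) (a0 : 0 < a) (a1 : a ≤ T)
    (xT : |ps u x| ≤ T) (e0 : 0 < ε) (e2 : ε * (25 * T) ≤ Real.exp (-(3 * a)))
    (hz : ∀ y ∈ closedBall x (16 * T), Zn ε u e y ∧ EE u y ≤ ε) : ph (-u) x * a ≤ 1 := by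
  by_contra k
  obtain ⟨k2, w, w0, hw⟩ := of_ph (not_le.1 k)
  have t0 : 1 / 2 ≤ 1 - qq u x / 2 := by linarith [qq_le u x]
  obtain ⟨φ, hφ⟩ : ∃ φ, φ = (1 - qq u x / 2) / (a + ps u x) := ⟨_, rfl⟩
  rw [← hφ] at hw
  have φ0 : 0 < φ := by rw [hφ]; positivity
  have φ1 : 1 ≤ 4 * T * φ := by
    rw [hφ, ← mul_div_assoc, le_div_iff₀ k2]
    nlinarith [le_abs_self (ps u x)]
  have w1 : ‖w‖ ≤ 16 * T := (far_le h φ0 hw).trans (by rw [div_le_iff₀ φ0]; linarith)
  obtain ⟨t, t1, t2⟩ := taylor h x w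
  have dp := depth h φ0 hw (Ioo_subset_Icc_self t1)
  rw [hφ, div_div_cancel₀ (by linarith : (0 : ℝ) < 1 - qq u x / 2).ne'] at dp
  obtain ⟨z1, z2⟩ := hz (x + t • w) (by
    rw [mem_closedBall, dist_eq_norm, add_sub_cancel_left, norm_smul, Real.norm_eq_abs,
      abs_of_pos t1.1]
    exact (mul_le_of_le_one_left (norm_nonneg w) t1.2.le).trans w1)
  have e1 : Real.exp (-(3 * a)) ≤ 1 := Real.exp_le_one_iff.2 (by linarith)
  have e3 := mul_le_mul_of_nonneg_left φ1 e0.le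
  have e4 := mul_le_mul_of_nonneg_right e2 φ0.le
  have e5 := mul_le_mul_of_nonneg_right e1 φ0.le
  obtain ⟨s1, s2⟩ := convex_dir h he w0 z1 (φ := φ) (by linarith) (by rw [t2]; linarith)
  have f1 := h.flo (x + t • w)
  have f2 := pow_le_pow_left₀ (by positivity) f1 2
  have s3 : √2 ≤ 3 / 2 := Real.sqrt_le_iff.2 ⟨by norm_num, by norm_num⟩
  rw [div_pow, Real.sq_sqrt (by norm_num), ← Real.exp_nat_mul, abs_of_neg s1] at f2
  have f3 : Real.exp (-(3 * a)) ≤ Real.exp ((2 : ℕ) * -(√2 * -ps u (x + t • w))) :=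
    Real.exp_le_exp.2 (by
      have := mul_le_mul s3 (show -ps u (x + t • w) ≤ a by linarith) (by linarith) (by norm_num)
      push_cast
      linarith)
  rw [EE] at z2
  have f4 := mul_le_mul ((div_le_div_of_nonneg_right f3 zero_le_two).trans f2) s2
    (by positivity) (sq_nonneg _)
  linarith

theorem supp1 (m : ℕ) (C M : ℝ) : ∃ c > (0 : ℝ), ∃ d₀ > (1 : ℝ),
    ∀ (δ : ℝ) (u : E (m + 1) → ℝ) (x : E (m + 1)), Rt C δ u → d₀ ≤ dd δ u x →
    |ps u x| ≤ M * Real.log (dd δ u x) → ph (-u) x * (c * Real.log (dd δ u x)) ≤ 1 := by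
  have P0 : 0 < |M| + 1 := by positivity
  obtain ⟨c, c0, t₀, H⟩ := flat m C (|M| + 1) 16 P0 (by norm_num)
  obtain ⟨t₁, h1⟩ := eventually_atTop.1 <| (ev 25 1 (c := c / 2) (by positivity)).and
    (eventually_ge_atTop t₀)
  refine ⟨min (c / 6) 1, by positivity, Real.exp (|t₁| + 1),
    Real.one_lt_exp_iff.2 (by positivity), fun δ u x h hd hx => ?_⟩
  have d0 : 0 < dd δ u x := (Real.exp_pos _).trans_le hd
  have L1 : |t₁| + 1 ≤ Real.log (dd δ u x) := (Real.le_log_iff_exp_le d0).2 hd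
  have L2 : Real.log (dd δ u x) ≤ Real.log (1 + dd δ u x) := Real.log_le_log d0 (by linarith)
  generalize Real.log (dd δ u x) = L at *
  have L0 : 0 < L := by linarith [abs_nonneg t₁]
  have LT : L ≤ (|M| + 1) * L := by nlinarith [abs_nonneg M]
  have xT : |ps u x| ≤ (|M| + 1) * L := hx.trans (by nlinarith [le_abs_self M])
  have T1 := mul_le_mul_of_nonneg_left L2 P0.le
  generalize (|M| + 1) * L = T at *
  obtain ⟨b1, b2⟩ := h1 T (by linarith [le_abs_self t₁])
  obtain ⟨e, he, hz⟩ := H δ u x T h b2 xT T1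
  have a2 : min (c / 6) 1 * L ≤ c / 6 * T := mul_le_mul (min_le_left _ _) LT L0.le (by positivity)
  refine core h.ok he (by positivity) ((mul_le_of_le_one_left L0.le (min_le_right _ _)).trans LT)
    xT (Real.exp_pos _) ?_ hz
  rw [pow_one] at b1
  refine (mul_le_mul_of_nonneg_left b1 (Real.exp_pos _).le).trans ?_
  rw [← Real.exp_add]
  exact Real.exp_le_exp.2 (by linarith)

theorem supp0 : SUPP := fun m C δ M => by
  obtain ⟨c, c0, d₀, d1, H⟩ := supp1 m C M
  refine ⟨c / 2, by positivity, d₀, d1, fun u x h hd hx => ?_⟩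
  have a := H δ u x h hd hx
  have b := H δ (-u) x (rt_neg h) (by rwa [dd_neg])
    (by rwa [dd_neg, Sy.ps_neg, Pi.neg_apply, abs_neg])
  rw [neg_neg, dd_neg] at b
  have L0 : 0 ≤ c * Real.log (dd δ u x) := mul_nonneg c0.le (Real.log_nonneg (by linarith))
  have k : GG u x ≤ 2 * max (ph u x) (ph (-u) x) := by
    have := le_max_left (ph u x) (ph (-u) x)
    have := le_max_right (ph u x) (ph (-u) x)
    have := ph_nn u x
    exact max_le (by linarith) (by linarith)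
  have k2 : max (ph u x) (ph (-u) x) * (c * Real.log (dd δ u x)) ≤ 1 := by
    rw [max_mul_of_nonneg _ _ L0]
    exact max_le b a
  nlinarith [mul_le_mul_of_nonneg_right k L0]

theorem supp : rSUPP := fun _ _ _ => supp0

end Vale.Agent.P134F
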