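import Vale.Agent.P134E.Defs
import Vale.Agent.P134C.Pack
import Vale.Agent.P134T.Calc

/-!
# P134F: packing of the base points with a long gap
-/

open MeasureTheory Metric Filter Topology Set
open scoped ContDiff RealInnerProductSpace ENNReal
open Vale.Agent.P366.Stmt (E)
open Vale.Agent.P134B Vale.Agent.P134E

noncomputable section

namespace Vale.Agent.P134F

variable {n : ℕ}

/-- disjoint translates -/
theorem transl {A : Set (E n)} (hA : MeasurableSet A) {e z : E n} (he : ‖e‖ = 1) {b a R : ℝ}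
    (b0 : 0 < b) (a0 : 0 < a) (aR : a ≤ R) (hz : A ⊆ ball z R)
    (h : ∀ y ∈ A, ∀ τ, b ≤ τ → τ ≤ a → y + τ • e ∉ A) :
    volume A ≤ ENNReal.ofReal ((2 * R) ^ n * P134C.Pack.V n * b / a) := by
  set J := ⌊a / b⌋₊ with hJ
  have J1 : (J : ℝ) * b ≤ a := (le_div_iff₀ b0).1 (Nat.floor_le (by positivity))
  have J2 : a / b ≤ ((J + 1 : ℕ) : ℝ) := by push_cast; exact (Nat.lt_floor_add_one _).le
  set T : ℕ → Set (E n) := fun j => (fun x => x + ((j : ℝ) * b) • e) ⁻¹' A with hT
  have jb : ∀ j ∈ Finset.range (J + 1), (j : ℝ) * b ≤ a := fun j hj =>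
    (mul_le_mul_of_nonneg_right (by exact_mod_cast Nat.lt_succ_iff.1 (Finset.mem_range.1 hj))
      b0.le).trans J1
  have key : ∀ i j : ℕ, i < j → j ∈ Finset.range (J + 1) → Disjoint (T i) (T j) :=
    fun i j hij hj => Set.disjoint_left.2 fun x hi hx => by
      have a1 : (i : ℝ) + 1 ≤ j := by exact_mod_cast hij
      have a2 : 0 ≤ (i : ℝ) * b := by positivity
      refine h _ hi (((j : ℝ) - i) * b) (by nlinarith) (by linarith [jb j hj]) ?_
      rwa [add_assoc, ← add_smul, show (i : ℝ) * b + ((j : ℝ) - i) * b = j * b by ring]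
  have e1 := measure_biUnion_finset (μ := volume) (s := Finset.range (J + 1)) (f := T)
    (fun i hi j hj hij => (lt_or_gt_of_ne hij).elim (fun k => key i j k hj)
      fun k => (key j i k hi).symm)
    fun j _ => hA.preimage (measurable_add_const _)
  have e2 : ∀ j, volume (T j) = volume A := fun j => measure_preimage_add_right _ _ _
  have e3 : ⋃ j ∈ Finset.range (J + 1), T j ⊆ ball z (2 * R) := iUnion₂_subset fun j hj x hx => by
    have a1 := mem_ball_iff_norm.1 (hz hx)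
    have a2 : ‖((j : ℝ) * b) • e‖ ≤ a := by
      rw [norm_smul, he, mul_one, Real.norm_of_nonneg (by positivity)]
      exact jb j hj
    have a3 := norm_sub_le (x + ((j : ℝ) * b) • e - z) (((j : ℝ) * b) • e)
    rw [show x + ((j : ℝ) * b) • e - z - ((j : ℝ) * b) • e = x - z by abel] at a3
    rw [mem_ball_iff_norm]
    linarith
  have e4 := measure_mono (μ := volume) e3
  rw [e1, Finset.sum_congr rfl fun j _ => e2 j, Finset.sum_const, Finset.card_range, nsmul_eq_mul,
    P134C.Pack.vol z (by linarith), mul_comm, ← ENNReal.ofReal_natCast] at e4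
  rw [mul_div_assoc, ← inv_div a b, ← div_eq_mul_inv]
  exact P134C.Pack.le_div (by positivity) ((mul_le_mul_right (ENNReal.ofReal_le_ofReal J2) _).trans e4)

theorem ex_dir {m : ℕ} {v : E (m + 1)} (hv : ‖v‖ = 1) : ∃ k : Fin (m + 1) × Bool,
    1 / ((m : ℝ) + 1) ≤ ⟪v, EuclideanSpace.single k.1 (if k.2 then (1 : ℝ) else -1)⟫ := by
  by_contra hn
  push Not at hn
  have m0 : (0 : ℝ) ≤ m := Nat.cast_nonneg m
  have a : ∀ i, v i ^ 2 < (1 / ((m : ℝ) + 1)) ^ 2 := fun i => by
    have a1 := hn (i, true)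
    have a2 := hn (i, false)
    simp only [EuclideanSpace.inner_single_right, if_true, conj_trivial, one_mul,
      Bool.false_eq_true, if_false, neg_mul] at a1 a2
    exact sq_lt_sq' (by linarith) a1
  have b := Finset.sum_lt_sum_of_nonempty Finset.univ_nonempty fun i _ => a i
  rw [← EuclideanSpace.real_norm_sq_eq, hv, Finset.sum_const, Finset.card_univ, Fintype.card_fin,
    nsmul_eq_mul] at b
  push_cast at b
  rw [div_pow, ← mul_div_assoc, lt_div_iff₀ (by positivity)] at b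
  nlinarith

theorem pkg0 (tg : TGC) (gr : GREG) (ft : FOOT) (sl : SLAB) (m : ℕ) (C : ℝ) : ∃ K ≥ (0 : ℝ),
    ∃ β > (0 : ℝ), ∀ (u : E (m + 1) → ℝ) (G R a : ℝ) (A : Set (E (m + 1))) (z : E (m + 1)),
    Ok C u → G ≤ R → 0 < a → MeasurableSet A →
    (∀ y ∈ A, (∃ ε, Th u ε G y ∧ G * ε ≤ β) ∧ a ≤ gp u G y) →
    volume (A ∩ ball z R) ≤ ENNReal.ofReal (K * R ^ (m + 1) / a) := by
  have m0 : (0 : ℝ) ≤ m := Nat.cast_nonneg m
  obtain ⟨c, hc⟩ : ∃ c, c = 1 / ((m : ℝ) + 1) := ⟨_, rfl⟩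
  have c0 : 0 < c := by rw [hc]; positivity
  have c1 : c ≤ 1 := by rw [hc, div_le_one (by positivity)]; linarith
  have V0 := P134C.Pack.V_pos (n := m + 1)
  obtain ⟨β, β0, hs⟩ := sl m C (c / 2) (by positivity)
  obtain ⟨K₁, ε₀, e0, hf⟩ := ft (m + 1) C 1
  refine ⟨2 * (m + 1) * (2 ^ (m + 1) * P134C.Pack.V (m + 1) * (33 / c)), by positivity,
    min β (min ε₀ (1 / 10)), by positivity, fun u G R a A z h GR a0 mA hA => ?_⟩
  rcases (A ∩ ball z R).eq_empty_or_nonempty with k | ⟨y₀, k0, -⟩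
  · simp [k]
  obtain ⟨⟨ε₁, t1, -⟩, g1⟩ := hA y₀ k0
  have G2 := t1.G2
  have aG : a ≤ G := g1.trans ((gr _ C G u h G2).2 y₀).2.1
  have sm : ∀ y ∈ A, ∃ ε, Th u ε G y ∧ G * ε ≤ β ∧ ε ≤ ε₀ ∧ ε ≤ 1 / 10 := fun y hy => by
    obtain ⟨⟨ε, t, k⟩, -⟩ := hA y hy
    have := t.e0
    exact ⟨ε, t, k.trans (min_le_left _ _),
      by nlinarith [k.trans ((min_le_right _ _).trans (min_le_left _ _))],
      by nlinarith [k.trans ((min_le_right _ _).trans (min_le_right _ _))]⟩
  have p0 : ∀ y ∈ A, pp u y ≠ 0 := fun y hy k => by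
    obtain ⟨ε, t, -, -, k1⟩ := sm y hy
    have ε0 := t.e0
    have a1 := h.tcore_q (t.gd y (mem_ball_self (by positivity))) t.ps
    have s3 : √2 ≤ 3 / 2 := Real.sqrt_le_iff.2 ⟨by norm_num, by norm_num⟩
    have a5 : Real.exp (√2 * 1) ≤ 5 := by
      have a3 : Real.exp (√2 * 1) * Real.exp (1 / 2) ≤ Real.exp 1 ^ 2 := by
        rw [← Real.exp_add, ← Real.exp_nat_mul]
        exact Real.exp_le_exp.2 (by push_cast; linarith)
      have a4 := Real.quadratic_le_exp_of_nonneg (x := 1 / 2) (by norm_num)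
      have a2 : Real.exp 1 ^ 2 ≤ 8 :=
        (pow_le_pow_left₀ (Real.exp_pos 1).le Real.exp_one_lt_d9.le 2).trans (by norm_num)
      nlinarith [Real.exp_pos (√2 * 1)]
    have a6 : √2 * Real.exp (√2 * 1) * ε ≤ 3 / 2 * 5 * (1 / 10) := by gcongr
    have a7 := pow_le_pow_left₀ (by positivity) a6 2
    rw [qq, k, norm_zero] at a1
    linarith
  have tg' := (tg _ C u h).2.2.2.1
  set d : Fin (m + 1) × Bool → E (m + 1) := fun k =>
    EuclideanSpace.single k.1 (if k.2 then (1 : ℝ) else -1) with hd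
  have d1 : ∀ k, ‖d k‖ = 1 := fun k => by
    rw [hd]
    dsimp only
    split_ifs <;> simp
  have cp := h.tcp.continuous
  have mν : Measurable (nu u) := cp.norm.measurable.inv.smul cp.measurable
  have cov : A ∩ ball z R ⊆ ⋃ k, (A ∩ ball z R) ∩ {y | c ≤ ⟪nu u y, d k⟫} := fun y hy => by
    obtain ⟨k, hk⟩ := ex_dir (tg' y (p0 y hy.1)).1
    exact mem_iUnion.2 ⟨k, hy, hc ▸ hk⟩
  have one : ∀ k, volume ((A ∩ ball z R) ∩ {y | c ≤ ⟪nu u y, d k⟫}) ≤ ENNReal.ofReal
      ((2 * R) ^ (m + 1) * P134C.Pack.V (m + 1) * (11 / c) / (a / 3)) := fun k => by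
    refine transl ((mA.inter measurableSet_ball).inter
      (measurableSet_le measurable_const (mν.inner_const))) (z := z) (d1 k) (by positivity)
      (by positivity) (by linarith) (fun y hy => hy.1.2) fun y hy τ τ0 τ1 hy' => ?_
    obtain ⟨ε, t, k1, -, -⟩ := sm y hy.1.1
    obtain ⟨ε', t', -, k2, k3⟩ := sm _ hy'.1.1
    have ε0 := t'.e0
    obtain ⟨w, w0, w1, -⟩ := hf u ε' _ h ε0 k2 (fun x hx => t'.gd x (ball_subset_ball
      (by rw [le_div_iff₀ ε0]; linarith) hx)) t'.ps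
    rw [div_le_iff₀ c0] at τ0
    have τ2 : 11 ≤ τ := by nlinarith
    obtain ⟨n1, -, -, -, -, -, -, n2, -⟩ := tg' y (p0 y hy.1.1)
    have e1 : w - y = (w - (y + τ • d k)) + τ • d k := by abel
    have e2 : ‖w - y‖ ≤ τ + 2 := by
      have := norm_add_le (w - (y + τ • d k)) (τ • d k)
      rw [← e1, norm_smul, d1, Real.norm_of_nonneg (by linarith)] at this
      linarith
    have e3 : c * τ - 2 ≤ ⟪w - y, nu u y⟫ := by
      have b1 := (neg_le_abs _).trans (abs_real_inner_le_norm (w - (y + τ • d k)) (nu u y))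
      have b2 : c ≤ ⟪nu u y, d k⟫ := hy.2
      rw [e1, inner_add_left, real_inner_smul_left, real_inner_comm (nu u y) (d k)]
      rw [n1] at b1
      nlinarith
    have e4 := real_inner_le_norm (w - y) (nu u y)
    rw [n1] at e4
    have e5 := mul_le_mul_of_nonneg_left ((n2 (w - y)).1.trans e2) (show 0 ≤ c / 2 by positivity)
    have e6 := (hA y hy.1.1).2
    rcases hs u ε G y w h t k1 w0 (by linarith) with k | k
    · linarith
    · nlinarith
  refine (measure_mono cov).trans ((measure_iUnion_fintype_le _ _).trans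
    ((Finset.sum_le_sum fun k _ => one k).trans (le_of_eq ?_)))
  rw [Finset.sum_const, Finset.card_univ, Fintype.card_prod, Fintype.card_fin, Fintype.card_bool,
    nsmul_eq_mul, ← ENNReal.ofReal_natCast, ← ENNReal.ofReal_mul (Nat.cast_nonneg _)]
  congr 1
  push_cast
  rw [mul_pow]
  field_simp
  ring

end Vale.Agent.P134F
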