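import Vale.Agent.P134C.D0
import Vale.Agent.P134B.Spec

/-!
# P134F, block (c), part E4: the defect of the two-point inequality (definitions and rows)
-/

open MeasureTheory Metric Filter Topology Set
open scoped ContDiff RealInnerProductSpace
open Vale.Agent.P366.Stmt (E)

noncomputable section

namespace Vale.Agent.P134F

open Vale.Agent.P134B Vale.Agent.P134C

variable {n : ℕ}

/-- the two-point quotient for paraboloids from above -/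
def Z2 (u : E n → ℝ) (x y : E n) : ℝ :=
  2 * (ps u y - ps u x - ⟪pp u x, y - x⟫) / ‖y - x‖ ^ 2

/-- the density which is multiplied by the defect -/
def Er (u : E n → ℝ) (x : E n) : ℝ := ff u x ^ 2 * (hs (SS u x) + PP u x * qq u x)

/-- the density of the additional gain -/
def gm (u : E n → ℝ) (x : E n) : ℝ := EE u x / (1 + ps u x ^ 2)

/-- the decay of the deficit -/
def Rt (δ R : ℝ) (u : E n → ℝ) : Prop :=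
  ∀ (x : E n) (d : ℝ), 0 < d → (∀ y ∈ ball x d, EE u y ≤ δ) → EE u x ≤ R / d ^ 2

/-- the radius `om2` at `w` is at most `Ω` -/
def Cm (u : E n → ℝ) (w : E n) (Ω : ℝ) : Prop :=
  ∃ y, 0 < Z2 u w y ∧ 1 / Z2 u w y - ps u w ≤ Ω

/-- the flat regime -/
def Flat (δ : ℝ) (u : E n → ℝ) (x : E n) (r : ℝ) : Prop :=
  ∃ e : E n, ‖e‖ = 1 ∧ ∀ w ∈ ball x r, Zn δ u e w

/-- **E4P**: the pointwise bound for the defect. Here `μ₂` is at most the supremum of `Z2 u x`,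
`μ₁` is at least the supremum of `-Z2 u x`. -/
def E4P : Prop := ∀ (m k : ℕ) (C δ R κ : ℝ), 0 < κ → κ ≤ 1 → ∃ Λ ≥ (1 : ℝ), ∀ η > (0 : ℝ),
  ∃ s₁ ≥ (1 : ℝ), ∀ (u : E (m + 1) → ℝ) (x : E (m + 1)) (d μ₁ μ₂ o : ℝ), Ok C u → Rt δ R u →
  0 ≤ d → (∀ y ∈ ball x d, EE u y ≤ δ) → 0 < μ₂ → (∀ a < μ₂, ∃ y, a < Z2 u x y) →
  (∀ y, -μ₁ ≤ Z2 u x y) → o = (1 - qq u x / 2) / μ₂ - ps u x → s₁ ≤ o → κ * o ≤ ps u x →
  (ps u x ≤ (1 + κ / 2) * o → μ₁ * ps u x ≤ 2 / κ) →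
  ps u x / o * Er u x * (1 + d) ^ k ≤ η ∨ (ps u x ≤ Λ * o ∧ ∃ c : E (m + 1),
    (∀ w ∈ ball c 1, ‖w - x‖ ≤ Λ * o ∧ Cm u w (Λ * o)) ∧
    ∀ w ∈ ball c 1, ps u x / o * Er u x * (1 + ‖x - w‖) ^ k ≤ η * gm u w)

/-- **ABS**: the additional gain -/
def ABS : Prop := ∃ K ≥ (1 : ℝ), ∀ (n : ℕ) (C : ℝ) (u φ : E n → ℝ), Ok C u → ContDiff ℝ 1 φ →
  HasCompactSupport φ → ∫ x, gm u x * φ x ^ 2 ≤
    K * ∫ x, ff u x ^ 2 * (PP u x * φ x ^ 2 + ‖gradient φ x‖ ^ 2)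

/-- **PFB**: the theorem of Fubini for pairs of points -/
def PFB : Prop := ∀ n : ℕ, ∃ K > (0 : ℝ), ∀ F g : E n → ℝ, AEStronglyMeasurable F →
  (∀ x, 0 ≤ F x) → (∀ w, 0 ≤ g w) → Integrable g →
  (∀ᵐ x, F x = 0 ∨ ∃ c, ∀ w ∈ ball c 1, F x * (1 + ‖x - w‖) ^ (n + 1) ≤ g w) →
  Integrable F ∧ ∫ x, F x ≤ K * ∫ w, g w

/-! ## The rows of E4P -/

/-- **TAY**: the formula of Taylor and Lagrange -/
def TAY : Prop := ∀ (n : ℕ) (C : ℝ) (u : E n → ℝ) (x y : E n), Ok C u → y ≠ x →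
  ∃ z ∈ segment ℝ x y, Z2 u x y = ⟪SS u z (‖y - x‖⁻¹ • (y - x)), ‖y - x‖⁻¹ • (y - x)⟫

/-- **ZL**: the segment to a point with a large quotient -/
def ZL : Prop := ∀ (n : ℕ) (C μ : ℝ) (u : E n → ℝ) (x y : E n), Ok C u → 0 < μ → μ < Z2 u x y →
  ‖y - x‖ ≤ 4 / μ ∧ ∀ w ∈ segment ℝ x y, -ps u w ≤ (1 - qq u x / 2) / μ - ps u x

/-- **SGN**: concavity on the positive side -/
def SGN : Prop := ∀ (n : ℕ) (C δ : ℝ) (u : E n → ℝ) (e z v : E n), Ok C u → ‖e‖ = 1 →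
  Zn δ u e z → 0 ≤ ps u z → ‖v‖ = 1 → ⟪SS u z v, v⟫ ≤ 2 * δ

/-- **FLT**: the flat regime with an exponential rate -/
def FLT : Prop := ∀ (m k : ℕ) (C δ R M : ℝ), ∃ a > (0 : ℝ), ∃ T, ∀ (u : E (m + 1) → ℝ)
  (x : E (m + 1)) (d : ℝ), Ok C u → Rt δ R u → 0 ≤ d → (∀ y ∈ ball x d, EE u y ≤ δ) →
  T ≤ ps u x → Real.exp (ps u x) ≤ (1 + d) ^ k →
  Flat (Real.exp (-(a * ps u x))) u x (M * ps u x)

/-- **RIC**: the equation of Riccati along a ray -/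
def RIC : Prop := ∀ (n : ℕ) (C δ τ : ℝ) (u : E n → ℝ) (e x : E n), Ok C u → ‖e‖ = 1 → 1 ≤ τ →
  Real.exp (-τ) ≤ qq u x → 0 ≤ δ → 16 * δ ≤ Real.exp (-τ) → 2 * τ + 2 ≤ ps u x →
  (∀ w ∈ closedBall x (2 * τ), Zn δ u e w) → ∃ y, Z2 u x y ≤ -(1 / (16 * τ))

/-- **DWN**: the step down towards the zero set -/
def DWN : Prop := ∀ (n : ℕ) (C : ℝ), ∃ K > (0 : ℝ), ∀ (u : E n → ℝ) (x : E n) (A : ℝ), Ok C u →
  1 ≤ A → A + 1 ≤ ps u x → 4 * (A * (2 + C * A)) ^ 2 * Real.exp (C * (3 * A + 2)) * qq u x ≤ 1 →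
  ∃ c, ‖c - x‖ ≤ A ∧ ∀ w ∈ ball c 1, Er u x ≤ K * Real.exp (-A) * EE u w

/-- **CMP**: the quotient at a neighbouring point -/
def CMP : Prop := ∀ (n : ℕ) (C μ σ r : ℝ) (u : E n → ℝ) (x y : E n), Ok C u → 0 < μ → 6 * σ ≤ μ →
  μ < Z2 u x y → (∀ w ∈ ball x r, ‖SS u w‖ ≤ σ) → ∀ w ∈ ball x r, μ / 8 ≤ Z2 u w y

/-- **PY1**: deep points close to the bad set -/
def PY1 : Prop := ∀ (n : ℕ) (C η : ℝ), 0 < η → ∃ T, ∀ (u : E n → ℝ) (x : E n), Ok C u →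
  T ≤ ps u x → ps u x * Er u x * Real.exp (ps u x) ≤ η

/-- **DEEP**: the gain is taken on the other side -/
def DEEP : Prop := ∀ (n k : ℕ) (C κ a : ℝ), 0 < κ → κ ≤ 1 → 0 < a → ∃ Λ ≥ (1 : ℝ),
  ∀ η > (0 : ℝ), ∃ T, ∀ (u : E n → ℝ) (x y : E n) (μ o : ℝ), Ok C u → T ≤ ps u x → 1 ≤ o →
  0 < μ → μ < Z2 u x y → (1 - qq u x / 2) / μ = o + ps u x + 1 → (1 + κ / 2) * o ≤ ps u x →
  Flat (Real.exp (-(a * ps u x))) u x (30 * ps u x) → ps u x ≤ Λ * o ∧ ∃ c : E n,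
    (∀ w ∈ ball c 1, ‖w - x‖ ≤ Λ * o ∧ Cm u w (Λ * o)) ∧
    ∀ w ∈ ball c 1, ps u x / o * Er u x * (1 + ‖x - w‖) ^ k ≤ η * gm u w

/-- **MID**: the gain is taken below the point -/
def MID : Prop := ∀ (n k : ℕ) (C κ a : ℝ), 0 < κ → κ ≤ 1 → 0 < a →
  ∀ η > (0 : ℝ), ∃ T, ∀ (u : E n → ℝ) (x y : E n) (μ μ₁ o : ℝ), Ok C u → T ≤ ps u x → 1 ≤ o →
  0 < μ → μ < Z2 u x y → (1 - qq u x / 2) / μ = o + ps u x + 1 → κ * o ≤ ps u x →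
  ps u x ≤ 2 * o → (∀ y, -μ₁ ≤ Z2 u x y) → μ₁ * ps u x ≤ 2 / κ →
  Flat (Real.exp (-(a * ps u x))) u x (30 * ps u x) → ∃ c : E n,
    (∀ w ∈ ball c 1, ‖w - x‖ ≤ 64 * o ∧ Cm u w (64 * o)) ∧
    ∀ w ∈ ball c 1, ps u x / o * Er u x * (1 + ‖x - w‖) ^ k ≤ η * gm u w

def rFLT : Prop := TL0 → FLT
def rRIC : Prop := TAY → RIC
def rCMP : Prop := TAY → CMP
def rDEEP : Prop := SYM → TAY → ZL → SGN → RIC → DEEP
def rMID : Prop := RIC → DWN → CMP → MID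
def rE4P : Prop := FLT → PY1 → DEEP → MID → E4P

end Vale.Agent.P134F
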